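import Vale.Agent.P241CB.Fix
import Vale.Agent.P241Z.Main

/-!
# P241: the conclusion for the light structure, given the comparison of Morava `K`-theories
-/

open CategoryTheory MonoidalCategory

noncomputable section

namespace Vale.Agent.P241L

open P241Y P241Z
open P251.St (SHCat Susp Map)

variable {T : SHCat} {S : Susp T}

/-- the old ring spectrum -/
def rA (K : Rg (fg T S)) : RingA T := @RingA.mk T K.ob K.mo

/-- the new ring spectrum -/
def rG (S : Susp T) (K : RingA T) : Rg (fg T S) := @Rg.mk (fg T S) K.obj K.mon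

variable {p : ℕ} {G : Type} [Group G] [Finite G]

theorem force_iff (F F' : FinSp G p ⥤ T.C) (K : ℕ → Rg (fg T S)) (n r : ℕ) :
    Force (T := fg T S) F F' K n r ↔ Forces (fun i => rA (K i)) F.obj F'.obj n r := Iff.rfl

theorem los_eq (F F' : FinSp G p ⥤ T.C) (K : ℕ → Rg (fg T S)) (n : ℕ) :
    los (T := fg T S) F F' K n = loss (fun i => rA (K i)) F.obj F'.obj n := rfl

theorem concl_of (T : SHCat) (S : Susp T)
    (hM : ∀ p n (K : Rg (fg T S)), Morava p n K ↔ IsMoravaK S p n (rA K)) (p : ℕ) (hp : p.Prime) :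
    (∃ K : ℕ → Rg (fg T S), ∀ i, Morava p i (K i)) ∧
    ∀ (G : Type) [Group G] [Finite G] (H : Subgroup G),
      (∃ Φ : (fg T S).Fn G p, GeomFix H Φ) ∧
      ∀ K : ℕ → Rg (fg T S), (∀ i, Morava p i (K i)) → IsPGroup p G →
        ∀ Φ Ψ : (fg T S).Fn G p, GeomFix H Φ → GeomFix ⊤ Ψ → ∀ n,
          los Φ Ψ K n = ell H ∧ ∀ r, Force Φ Ψ K n r ↔ ell H ≤ r := by
  refine ⟨?_, fun G _ _ H => ⟨?_, fun K hK hG Φ Ψ hΦ hΨ n => ?_⟩⟩
  · obtain ⟨K, hK⟩ := exists_moravaK S hp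
    exact ⟨fun i => rG S (K i), fun i => (hM p i _).mpr (hK i)⟩
  · obtain ⟨Φ, hΦ⟩ := exists_isGeomFix S H hp.one_lt.ne'
    exact ⟨Φ, (geomFix_iff H Φ).mpr hΦ⟩
  · exact smith hp H (fun i => rA (K i)) (fun i => (hM p i _).mp (hK i)) hG Φ Ψ
      ((geomFix_iff H Φ).mp hΦ) ((geomFix_iff ⊤ Ψ).mp hΨ) n

end Vale.Agent.P241L
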