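import Vale.Agent.P241CL.St

/-!
# The light structure underlying a stable homotopy category with a suspension spectrum functor
-/

open CategoryTheory MonoidalCategory

noncomputable section

namespace Vale.Agent.P241L

open P251.St

/-- The symmetric monoidal preadditive category with the suspension spectrum data. -/
def fg (T : SHCat) (S : Susp T) : SM where
  Sp := T.C
  sus := S.obj
  sm := S.map
  sx := S.mul
  su := S.unit

end Vale.Agent.P241L
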