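import Vale.Agent.P241CB.Fg
import Vale.Agent.P251CX.St

/-!
# P241: the light definitions agree with the old ones (localisation, fixed points, loss)
-/

open CategoryTheory MonoidalCategory

noncomputable section

namespace Vale.Agent.P241L

open P241Y P241Z
open P251.St (SHCat Susp Map)

variable {T : SHCat} {S : Susp T} {p : ℕ}

theorem pLoc_iff (C : T.C) : PLoc (T := fg T S) p C ↔ PLocal p C := Iff.rfl

theorem isLoca_iff {A B : T.C} (f : A ⟶ B) : IsLoca (T := fg T S) p f ↔ IsPLoc p f := Iff.rfl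

variable {G : Type} [Group G] [Finite G] (H : Subgroup G)

theorem fixd_iff (F : FinSp G p ⥤ T.C) (E : ℕ → T.C) :
    Fixd (T := fg T S) H F E ↔ IsFix S p H (toFin G p ⋙ F) E := by
  constructor
  · rintro ⟨θ, h1, h2⟩
    exact ⟨fun A => θ A A.k rfl, fun A => h1 A A.k rfl, fun X Y a b k f g hg =>
      h2 ⟨X, a, k⟩ ⟨Y, b, k⟩ k rfl rfl f g hg⟩
  · rintro ⟨θ, h1, h2⟩
    refine ⟨fun a k h => h ▸ θ a, ?_, ?_⟩
    · rintro a _ rfl
      exact h1 a
    · rintro ⟨X, a, k⟩ ⟨Y, b, k'⟩ _ rfl h' f g hg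
      obtain rfl : k' = k := h'
      exact h2 X Y a b k' f g hg

theorem geomFix_iff (F : FinSp G p ⥤ T.C) : GeomFix (T := fg T S) H F ↔ IsGeomFix S H F :=
  fixd_iff H F _

/-- `IsSH` for the full structure gives `IsSH` for the light one. -/
def isSH_fg (I : P251CX.IsSH T S.toSuspData) : IsSH (fg T S) where
  L := I.L
  l := I.l
  l_id := I.l_id
  l_comp := I.l_comp
  loc := I.loc
  mu := I.mu
  io := I.io
  flat := I.flat
  mu_iso := I.mu_iso
  mu_nat := fun X Y Z X' Y' Z' b b' f g h H => (I.mu_nat X Y Z X' Y' Z' b b' f g h H).w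
  mu_assoc := fun X Y Z X' Y' Z' a b b' d H => (I.mu_assoc X Y Z X' Y' Z' a b b' d H).w
  mu_comm := I.mu_comm
  mu_unit := fun X Y Z b u g H => (I.mu_unit X Y Z b u g H).w
  io_iso := I.io_iso
  io_nat := fun A B X Y u v a f hA hB H => (I.io_nat A B X Y u v a f hA hB H).w
  io_mul := fun A B X Y Z u v w b hA hB H => (I.io_mul A B X Y Z u v w b hA hB H).w

end Vale.Agent.P241L
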