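import Vale.Agent.P241CB.Fix
import Vale.Agent.P241Z.Fix

/-!
# P241: the light Morava `K`-theories are the old ones
-/

open CategoryTheory MonoidalCategory Limits

noncomputable section

namespace Vale.Agent.P241L

open P241Y P241Z
open P251.St (SHCat Susp Map Rn Pn)

variable {T : SHCat} {S : Susp T}

/-- All maps `S^a ⟶ K ⊗ S^b` vanish iff `π_{a-b} K = 0`. -/
theorem pi_zero_iff (S : Susp T) (K : T.C) (a b : ℕ) (k : ℤ) (hk : (a : ℤ) - b = k) :
    (∀ f : S.obj (Rn a) ⟶ K ⊗ S.obj (Rn b), f = 0) ↔ ∀ f : sphere T k ⟶ K, f = 0 := by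
  let e1 : S.obj (Rn a) ≅ (sphere T k)⟦(b : ℤ)⟧ :=
    (λ_ _).symm ≪≫ tenSph S a (𝟙_ T.C) ≪≫
      (shiftFunctorAdd' T.C k (b : ℤ) (a : ℤ) (by omega)).app (𝟙_ T.C)
  let e2 := tenSph S b K
  constructor
  · intro h f
    have h1 := h (e1.hom ≫ f⟦(b : ℤ)⟧' ≫ e2.inv)
    have h2 : f⟦(b : ℤ)⟧' = 0 := by
      rw [← cancel_epi e1.hom, ← cancel_mono e2.inv, Category.assoc, h1, comp_zero, zero_comp]
    exact (shiftFunctor T.C (b : ℤ)).map_injective (by rw [h2, Functor.map_zero])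
  · intro h f
    obtain ⟨g, hg⟩ := (shiftFunctor T.C (b : ℤ)).map_surjective (e1.inv ≫ f ≫ e2.hom)
    rw [h g, Functor.map_zero] at hg
    rw [← cancel_epi e1.inv, ← cancel_mono e2.hom, Category.assoc, ← hg, comp_zero, zero_comp]

theorem perField_iff (K : Rg (fg T S)) (p : ℕ) (d : ℤ) :
    PerField K p d ↔ IsPeriodicField (@RingA.mk T K.ob K.mo) p d := by
  constructor
  · intro h
    refine ⟨fun k f hk => ?_, h.char, h.ne, h.gen⟩
    have e : ((k.toNat : ℕ) : ℤ) - ((-k).toNat : ℕ) = k := by omega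
    exact (pi_zero_iff S K.ob _ _ k e).mp (fun g => h.sparse _ _ g (by rwa [e])) f
  · intro h
    exact ⟨fun a b f hk => (pi_zero_iff S K.ob a b _ rfl).mpr (fun g => h.sparse _ g hk) f,
      h.char, h.ne, h.gen⟩

theorem rat0_iff (K : Rg (fg T S)) : Rat0 K ↔ IsRational (@RingA.mk T K.ob K.mo) := by
  constructor
  · intro h
    refine ⟨fun k f hk => ?_, h.ne, h.div, h.gen⟩
    have e : ((k.toNat : ℕ) : ℤ) - ((-k).toNat : ℕ) = k := by omega
    exact (pi_zero_iff S K.ob _ _ k e).mp (fun g => h.conc _ _ g (by omega)) f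
  · intro h
    exact ⟨fun a b f hk => (pi_zero_iff S K.ob a b _ rfl).mpr
      (fun g => h.conc _ g (by omega)) f, h.ne, h.div, h.gen⟩

/-- old orientation -/
def oA {R : Rg (fg T S)} (o : Orient R) : Oriented S (@RingA.mk T R.ob R.mo) where
  θ := o.th
  isom := o.isom
  sum := o.sum
  fibre := o.fibre

/-- new orientation -/
def oG {R : RingA T} (o : Oriented S R) : Orient (@Rg.mk (fg T S) R.obj R.mon) where
  th := o.θ
  isom := o.isom
  sum := o.sum
  fibre := o.fibre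

theorem morava_iff (p n : ℕ) (K : Rg (fg T S)) :
    Morava p n K ↔ IsMoravaK S p n (@RingA.mk T K.ob K.mo) := by
  unfold Morava IsMoravaK
  split_ifs
  · exact rat0_iff K
  · refine and_congr (perField_iff K p _) ⟨?_, ?_⟩
    · rintro ⟨R, u, o, h1, h2, h3⟩
      exact ⟨@RingA.mk T R.ob R.mo, u, oA o, h1, h2, h3⟩
    · rintro ⟨R, u, o, h1, h2, h3⟩
      exact ⟨@Rg.mk (fg T S) R.obj R.mon, u, oG o, h1, h2, h3⟩

end Vale.Agent.P241L
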