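import Vale.Agent.P241CB.Mv
import Vale.Agent.P241CB.Concl0
import Vale.Agent.P241CT.Ex
import Vale.Agent.P251CX.Top

/-!
# P241 in the stable homotopy category of orthogonal spectra
-/

open CategoryTheory

namespace Vale.Agent.P241L

open P241Y

/-- The stable homotopy category exists. -/
theorem exists_isSH : ∃ T : SM, Nonempty (IsSH T) := by
  obtain ⟨T, S, ⟨I⟩⟩ := P251CX.exists_isSH
  exact ⟨fg T S, ⟨isSH_fg I⟩⟩

/-- The chromatic Smith theorem in the stable homotopy category. -/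
theorem concl (T : SM) (I : IsSH T) (p : ℕ) (hp : p.Prime) :
    (∃ K : ℕ → Rg T, ∀ i, Morava p i (K i)) ∧
    ∀ (G : Type) [Group G] [Finite G] (H : Subgroup G),
      (∃ Φ : T.Fn G p, GeomFix H Φ) ∧
      ∀ K : ℕ → Rg T, (∀ i, Morava p i (K i)) → IsPGroup p G →
        ∀ Φ Ψ : T.Fn G p, GeomFix H Φ → GeomFix ⊤ Ψ → ∀ n,
          los Φ Ψ K n = ell H ∧ ∀ r, Force Φ Ψ K n r ↔ ell H ≤ r := by
  obtain ⟨T1, S1, rfl⟩ := P241CT.exists_heavy I
  exact concl_of T1 S1 morava_iff p hp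

end Vale.Agent.P241L
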